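import Vale.Agent.P154.Anti.Win.W482
import Vale.Agent.P154.Anti.Win.W490
import Vale.Agent.P154.Anti.Win.T492
import Vale.Agent.P154.Anti.Win.T496
import Vale.Agent.P154.Anti.Win.T498
import Vale.Agent.P154.Anti.Win.T499
import Vale.Agent.P154.Anti.Win.T4995
import Vale.Agent.P154.Anti.Win.T500

/-!
# The critical Poisson trees with edge parameter at most -47/100
-/

namespace Vale.Agent.P154.Anti.Crit

open Filter Topology Vale.Agent.P154.Tree

/-- Nonreconstruction on the critical curve, Poisson offspring, `-1/2 ≤ λ ≤ -47/100`. -/
theorem poisson_corner {d lam : ℝ} (h0 : -(1 / 2) ≤ lam) (h1 : lam ≤ -(47 / 100))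
    (hd : d * lam ^ 2 = 1) : Tendsto (adv 3 (poissonLaw d) lam) atTop (𝓝 0) := by
  rcases le_total lam (-999/2000) with a | a
  · exact T500.poisson (by linarith) a hd
  rcases le_total lam (-499/1000) with b | b
  · exact T4995.poisson a b hd
  rcases le_total lam (-249/500) with c | c
  · exact T499.poisson b c hd
  rcases le_total lam (-62/125) with e | e
  · exact T498.poisson c e hd
  rcases le_total lam (-123/250) with f | f
  · exact T496.poisson e f hd
  rcases le_total lam (-49/100) with g | g
  · exact T492.poisson f g hd
  rcases le_total lam (-241/500) with k | k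
  · exact W490.poisson g k hd
  exact W482.poisson k (by linarith) hd

end Vale.Agent.P154.Anti.Crit
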