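import Vale.Agent.P154.Mid.Range
import Vale.Agent.P154.Anti.Win.P400
import Vale.Agent.P154.Anti.Win.P430
import Vale.Agent.P154.Anti.Win.P450
import Vale.Agent.P154.Anti.Win.P460
import Vale.Agent.P154.Anti.Win.P465
import Vale.Agent.P154.Anti.Win.P470

/-!
# The critical Poisson trees with edge parameter at least -47/100
-/

namespace Vale.Agent.P154.Anti.Crit

open Filter Topology Vale.Agent.P154.Tree

/-- Nonreconstruction on the critical curve, Poisson offspring, `-47/100 ≤ λ < 0`. -/
theorem poisson_upper {d lam : ℝ} (h0 : -(47 / 100) ≤ lam) (h1 : lam < 0) (hd : d * lam ^ 2 = 1) :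
    Tendsto (adv 3 (poissonLaw d) lam) atTop (𝓝 0) := by
  rcases le_total lam (-93/200) with b | b
  · exact P470.poisson (by linarith) b hd
  rcases le_total lam (-23/50) with c | c
  · exact P465.poisson b c hd
  rcases le_total lam (-9/20) with e | e
  · exact P460.poisson c e hd
  rcases le_total lam (-43/100) with f | f
  · exact P450.poisson e f hd
  rcases le_total lam (-2/5) with g | g
  · exact P430.poisson f g hd
  rcases le_total lam (-48/125) with k | k
  · exact P400.poisson g k hd
  exact Mid.poisson_mid_crit (by linarith) h1 hd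

end Vale.Agent.P154.Anti.Crit
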