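import Vale.Agent.P154.Anti.Final
import Vale.Agent.P154.Mid.Range
import Vale.Agent.P154.Anti.Reg5.Range
import Vale.Agent.P154.Anti.Reg4.Range

/-!
# The critical antiferromagnetic regular trees, and the three-state threshold on regular trees
-/

namespace Vale.Agent.P154.Anti.Crit

open Filter Topology Vale.Agent.P154.Tree

/-- Nonreconstruction at the negative critical parameter of the `d`-ary tree, `4 ≤ d ≤ 11`. -/
theorem regular (d : ℕ) (h4 : 4 ≤ d) (_h11 : d ≤ 11) (lam : ℝ) (hl : lam < 0)
    (hd : (d : ℝ) * lam ^ 2 = 1) : Tendsto (adv 3 (regLaw d) lam) atTop (𝓝 0) := by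
  rcases le_or_gt 6 d with h6 | h6
  · exact Mid.regular_mid h6 hl.le hd.le
  interval_cases d
  · exact Reg4.tendsto_adv_four_crit hl hd
  · exact Reg5.tendsto_adv_five_crit hl hd

/-- Three states on regular trees: the threshold at every parameter. -/
theorem three_regular (d : ℕ) (lam : ℝ) (hd : 2 ≤ d) (h0 : -(1 / 2) ≤ lam) (h1 : lam ≤ 1) :
    (0 < liminf (adv 3 (regLaw d) lam) atTop ↔ 1 < (d : ℝ) * lam ^ 2) ∧
      (Tendsto (adv 3 (regLaw d) lam) atTop (𝓝 0) ↔ (d : ℝ) * lam ^ 2 ≤ 1) := by
  have hl : Adm 3 lam := adm_of_range (by norm_num) (by norm_num; linarith) h1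
  refine Final.iff_of (fun h => ?_)
    (fun h => reconstruction_regLaw (q := 3) (by norm_num) d hl h)
  rcases le_total 0 lam with hs | hs
  · exact Q3.regular_three hd hs h1 h
  · exact Final.regular_neg regular h0 hs h

end Vale.Agent.P154.Anti.Crit
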